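import Vale.Agent.P181.TRI.Defs

set_option autoImplicit false

/-!
# P181, TRI, rows [T4a], [T4b]: permutations inside pairs of slots
-/

namespace Vale.Agent.P181.TRI.H648

open Finset Function

section

variable {N : ℕ} {E X : Type} [Fintype E] [DecidableEq E] [Fintype X] [DecidableEq X]
  (ψ : E × Fin 2 ↪ Fin N)

theorem ext_in (g : E → Equiv.Perm (Fin 2 × X)) (e : E) (y : Fin 2) (x : X) :
    ext ψ g (ψ (e, y), x) = (ψ (e, (g e (y, x)).1), (g e (y, x)).2) := by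
  unfold ext
  exact Equiv.Perm.viaFintypeEmbedding_apply_image
    (Equiv.prodCongrRight g : Equiv.Perm (E × Fin 2 × X)) _ ((e, y, x) : E × Fin 2 × X)

theorem ext_out (g : E → Equiv.Perm (Fin 2 × X)) (i : Fin N) (x : X) (hi : i ∉ Set.range ψ) :
    ext ψ g (i, x) = (i, x) := by
  unfold ext
  apply Equiv.Perm.viaFintypeEmbedding_apply_notMem_range
  rintro ⟨⟨e, y, x'⟩, h⟩
  exact hi ⟨(e, y), congrArg Prod.fst h⟩

theorem ext_mul (g g' : E → Equiv.Perm (Fin 2 × X)) :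
    ext ψ (g * g') = ext ψ g * ext ψ g' := by
  apply Equiv.ext
  rintro ⟨i, x⟩
  rw [Equiv.Perm.mul_apply]
  by_cases hi : i ∈ Set.range ψ
  · obtain ⟨⟨e, y⟩, rfl⟩ := hi
    rw [ext_in, ext_in, ext_in]
    rfl
  · rw [ext_out ψ _ i x hi, ext_out ψ _ i x hi, ext_out ψ _ i x hi]

theorem ext_one : ext ψ (1 : E → Equiv.Perm (Fin 2 × X)) = 1 := by
  apply Equiv.ext
  rintro ⟨i, x⟩
  by_cases hi : i ∈ Set.range ψ
  · obtain ⟨⟨e, y⟩, rfl⟩ := hi
    rw [ext_in]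
    rfl
  · rw [ext_out ψ _ i x hi]
    rfl

end

/-- **[T4a]** -/
theorem extStmt : ExtStmt := by
  intro N E X _ _ _ _ ψ
  exact ⟨ext_in ψ, ext_out ψ, ext_mul ψ, ext_one ψ⟩

/-- **[T4b]** -/
theorem decompStmt : DecompStmt := by
  intro N E X _ _ _ _ _ ψ ρ hρ
  classical
  -- one pair
  have key : ∀ e : E, ∃ (w : Equiv.Perm (Fin 2 × X)) (J : Fin 2 → Fin N),
      (∀ y x, ρ (J y, x) = (ψ (e, (w (y, x)).1), (w (y, x)).2)) ∧
      ∀ j x y, (ρ (j, x)).1 = ψ (e, y) → ∃ y', j = J y' := by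
    intro e
    obtain ⟨Je, hJe⟩ : ∃ Je : Finset (Fin N), ∀ j, j ∈ Je ↔ ∃ x y, (ρ (j, x)).1 = ψ (e, y) :=
      ⟨univ.filter fun j => ∃ x y, (ρ (j, x)).1 = ψ (e, y), fun j => by simp⟩
    have hall : ∀ j ∈ Je, ∀ x, ∃ y, (ρ (j, x)).1 = ψ (e, y) := by
      intro j hj x
      obtain ⟨x', y', h'⟩ := (hJe j).1 hj
      rcases hρ j x' x with h | ⟨e', y1, y2, h1, h2⟩
      · exact ⟨y', by rw [← h, h']⟩
      · have h3 : (e', y1) = (e, y') := ψ.injective (h1.symm.trans h')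
        have h4 : e' = e := congrArg Prod.fst h3
        exact ⟨y2, by rw [h2, h4]⟩
    have hex : ∀ p : Je × X, ∃ q : Fin 2 × X, ρ (p.1.1, p.2) = (ψ (e, q.1), q.2) := by
      rintro ⟨⟨j, hj⟩, x⟩
      obtain ⟨y, hy⟩ := hall j hj x
      exact ⟨(y, (ρ (j, x)).2), Prod.ext hy rfl⟩
    choose β hβ using hex
    have hinj : Injective β := by
      intro p p' h
      have h1 : ρ (p.1.1, p.2) = ρ (p'.1.1, p'.2) := by rw [hβ p, hβ p', h]
      have h2 := ρ.injective h1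
      rw [Prod.mk.injEq] at h2
      exact Prod.ext (Subtype.ext h2.1) h2.2
    have hsurj : Surjective β := by
      rintro ⟨y, x⟩
      obtain ⟨⟨j, x'⟩, hp⟩ := ρ.surjective (ψ (e, y), x)
      have hj : j ∈ Je := (hJe j).2 ⟨x', y, congrArg Prod.fst hp⟩
      refine ⟨(⟨j, hj⟩, x'), ?_⟩
      have h1 := hβ (⟨j, hj⟩, x')
      rw [hp, Prod.mk.injEq] at h1
      have h2 : (e, y) = (e, (β (⟨j, hj⟩, x')).1) := ψ.injective h1.1
      rw [Prod.mk.injEq] at h2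
      exact Prod.ext h2.2.symm h1.2.symm
    have hcard : Fintype.card (Je × X) = Fintype.card (Fin 2 × X) :=
      Fintype.card_of_bijective ⟨hinj, hsurj⟩
    rw [Fintype.card_prod, Fintype.card_prod] at hcard
    have hJ2 : Fintype.card (Fin 2) = Fintype.card Je :=
      (Nat.eq_of_mul_eq_mul_right Fintype.card_pos hcard).symm
    obtain ⟨γ⟩ : Nonempty (Fin 2 ≃ Je) := Fintype.card_eq.1 hJ2
    refine ⟨(γ.prodCongr (Equiv.refl X)).trans (Equiv.ofBijective β ⟨hinj, hsurj⟩),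
      fun y => (γ y).1, ?_, ?_⟩
    · intro y x
      exact hβ (γ y, x)
    · intro j x y h
      have hj : j ∈ Je := (hJe j).2 ⟨x, y, h⟩
      refine ⟨γ.symm ⟨j, hj⟩, ?_⟩
      show j = (γ (γ.symm ⟨j, hj⟩)).1
      rw [Equiv.apply_symm_apply]
  choose w J h1 h2 using key
  refine ⟨w, ?_⟩
  have hin : ∀ e y x, ((ext ψ w)⁻¹ * ρ) (J e y, x) = (ψ (e, y), x) := by
    intro e y x
    rw [Equiv.Perm.mul_apply, Equiv.Perm.inv_eq_iff_eq, ext_in]
    exact h1 e y x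
  intro i x x'
  by_cases hi : ∃ e y, i = J e y
  · obtain ⟨e, y, rfl⟩ := hi
    rw [hin, hin]
  · have hout : ∀ x, (ρ (i, x)).1 ∉ Set.range ψ := by
      rintro x ⟨⟨e, y⟩, h⟩
      obtain ⟨y', hy'⟩ := h2 e i x y h.symm
      exact hi ⟨e, y', hy'⟩
    have hfix : ∀ x, ((ext ψ w)⁻¹ * ρ) (i, x) = ρ (i, x) := by
      intro x
      rw [Equiv.Perm.mul_apply, Equiv.Perm.inv_eq_iff_eq]
      exact (ext_out ψ w (ρ (i, x)).1 (ρ (i, x)).2 (hout x)).symm
    rw [hfix, hfix]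
    rcases hρ i x x' with h | ⟨e, y, y', h3, -⟩
    · exact h
    · exact absurd ⟨(e, y), h3.symm⟩ (hout x)

end Vale.Agent.P181.TRI.H648
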