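import Vale.Agent.P181.TRI.Defs

set_option autoImplicit false

/-!
# P181, TRI, row [T3]: tensor powers of an injective relation
-/

namespace Vale.Agent.P181.TRI.H648

open Finset Function

/-- summing over all values at one place -/
theorem sum_update {E G' : Type} [Fintype E] [DecidableEq E] [Fintype G'] (a : E)
    (Ψ : (E → G') → ℂ) :
    ∑ p : G' × (E → G'), Ψ (update p.2 a p.1) = Fintype.card G' * ∑ w, Ψ w := by
  have h1 : ∑ p : G' × (E → G'), Ψ (update p.2 a p.1) = ∑ p : G' × (E → G'), Ψ p.2 := by
    let φ : G' × (E → G') → G' × (E → G') := fun p => (p.2 a, update p.2 a p.1)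
    have hφ : ∀ p, φ (φ p) = p := by
      rintro ⟨v, w⟩
      simp [φ]
    refine Fintype.sum_equiv ⟨φ, φ, hφ, hφ⟩ _ _ fun p => rfl
  rw [h1, Fintype.sum_prod_type]
  simp

/-- **[T3]** -/
theorem tensorStmt : TensorStmt := by
  intro E G G' _ _ _ _ _ H φ hinj F hH hsum
  have key : ∀ S : Finset E, ∀ τ : E → G,
      ∑ w : E → G', F (fun e => if e ∈ S then τ e else τ e * φ (w e)) = 0 := by
    intro S
    induction S using Finset.induction_on with
    | empty =>
      intro τ
      simpa using hsum τ
    | insert a S ha ih =>
      intro τ
      have h := hinj (fun g => ∑ w : E → G', F (fun e => if e ∈ insert a S then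
        (update τ a g) e else τ e * φ (w e))) ?_ ?_ (τ a)
      · simpa using h
      · intro g h hh
        refine Finset.sum_congr rfl fun w _ => ?_
        rw [← hH (fun e => if e ∈ insert a S then (update τ a g) e else τ e * φ (w e)) a h hh]
        congr 1
        funext e
        by_cases he : e = a
        · subst he
          simp
        · by_cases hS : e ∈ S
          · simp [he, hS]
          · simp [he, hS]
      · intro g
        have h1 := ih (update τ a g)
        have h2 := sum_update (G' := G') a (fun w => F (fun e => if e ∈ S then
          (update τ a g) e else (update τ a g) e * φ (w e)))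
        rw [h1, mul_zero, Fintype.sum_prod_type] at h2
        rw [← h2]
        refine Finset.sum_congr rfl fun v _ => Finset.sum_congr rfl fun w _ => ?_
        congr 1
        funext e
        by_cases he : e = a
        · subst he
          simp [ha]
        · by_cases hS : e ∈ S
          · simp [he, hS]
          · simp [he, hS]
  intro τ
  have h := key univ τ
  simp only [Finset.mem_univ, if_true, Finset.sum_const, Finset.card_univ, nsmul_eq_mul] at h
  rcases mul_eq_zero.1 h with h | h
  · exfalso
    have : (Fintype.card (E → G') : ℂ) ≠ 0 := by
      exact_mod_cast Fintype.card_ne_zero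
    exact this h
  · exact h

end Vale.Agent.P181.TRI.H648
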